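import Vale.Agent.P092.H213.Rp.Defs
import Mathlib.RingTheory.Nilpotent.Exp
import Mathlib.Algebra.Lie.Derivation.Basic
import Mathlib.LinearAlgebra.Dual.Lemmas
import Mathlib.LinearAlgebra.Eigenspace.Basic

/-!
P092, project RP (helper144): exponentials of ad-nilpotent elements of a Lie algebra in
characteristic zero: automorphisms, stable subspaces.
-/

set_option linter.all false

open Module

namespace Vale.Agent.P092.H144.Rp

open Vale.Agent.P092.H213.Rp

section lin

variable {k V : Type} [Field k] [AddCommGroup V] [Module k V]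

/-- A vector valued polynomial with infinitely many values in a subspace has its coefficients in
this subspace. -/
theorem coeff_mem (S : Submodule k V) (m : ℕ) (p : ℕ → V)
    (h : {t : k | ∑ i ∈ Finset.range m, t ^ i • p i ∈ S}.Infinite) {i : ℕ} (hi : i < m) :
    p i ∈ S := by
  by_contra hp
  obtain ⟨f, hf, hS⟩ := Submodule.exists_le_ker_of_notMem hp
  let q : Polynomial k := ∑ i ∈ Finset.range m, Polynomial.C (f (p i)) * Polynomial.X ^ i
  have hq : q = 0 := by
    refine Polynomial.eq_zero_of_infinite_isRoot q (h.mono fun t ht => ?_)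
    have h1 : f (∑ i ∈ Finset.range m, t ^ i • p i) = 0 := hS ht
    show Polynomial.IsRoot q t
    rw [Polynomial.IsRoot.def, Polynomial.eval_finsetSum]
    rw [map_sum] at h1
    rw [← h1]
    refine Finset.sum_congr rfl fun j _ => ?_
    rw [Polynomial.eval_mul, Polynomial.eval_C, Polynomial.eval_pow, Polynomial.eval_X, map_smul,
      smul_eq_mul, mul_comm]
  have h2 : q.coeff i = f (p i) := by
    simp only [q, Polynomial.finsetSum_coeff, Polynomial.coeff_C_mul, Polynomial.coeff_X_pow]
    rw [Finset.sum_eq_single i]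
    · simp
    · intro j _ hj
      simp [Ne.symm hj]
    · intro h3
      exact absurd (Finset.mem_range.2 hi) h3
  rw [hq, Polynomial.coeff_zero] at h2
  exact hf h2.symm

/-- Powers of a nilpotent endomorphism above the dimension vanish. -/
theorem pow_eq_zero' [Module.Finite k V] {X : Module.End k V} (h : IsNilpotent X) {m : ℕ}
    (hm : finrank k V ≤ m) : X ^ m = 0 := by
  obtain ⟨N, hN⟩ := h
  have h1 := Module.End.ker_pow_eq_ker_pow_finrank_of_le (f := X) hm
  have h2 := Module.End.ker_pow_eq_ker_pow_finrank_of_le (f := X) (hm.trans (le_max_left m N))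
  have h3 : X ^ max m N = 0 := pow_eq_zero_of_le (le_max_right m N) hN
  rw [h3] at h2
  rw [← h2] at h1
  rw [LinearMap.ker_zero] at h1
  exact LinearMap.ker_eq_top.1 h1

end lin

section lie

variable {k L : Type} [Field k] [LieRing L] [LieAlgebra k L]

theorem eu_apply (x v : L) : eu k x v = ∑ i ∈ Finset.range (finrank k L + 1),
    ((i.factorial : k)⁻¹) • ((LieAlgebra.ad k L x) ^ i) v := by
  simp [eu, ex, LinearMap.sum_apply]

theorem eu_smul_apply (t : k) (x v : L) : eu k (t • x) v =
    ∑ i ∈ Finset.range (finrank k L + 1),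
      t ^ i • (((i.factorial : k)⁻¹) • ((LieAlgebra.ad k L x) ^ i) v) := by
  rw [eu_apply]
  refine Finset.sum_congr rfl fun i _ => ?_
  rw [map_smul, smul_pow, LinearMap.smul_apply, smul_comm]

theorem Nil.smul {x : L} (hx : Nil k x) (t : k) : Nil k (t • x) := by
  unfold Nil at hx ⊢
  rw [map_smul]
  exact hx.smul t

theorem Nil.neg {x : L} (hx : Nil k x) : Nil k (-x) := by
  unfold Nil at hx ⊢
  rw [map_neg]
  exact hx.neg

/-- The linear term of a subspace valued curve. -/
theorem ad_mem_of_eu [CharZero k] [Module.Finite k L] (S : Submodule k L) {x v : L}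
    (h : {t : k | eu k (t • x) v ∈ S}.Infinite) : ⁅x, v⁆ ∈ S := by
  rcases Nat.eq_zero_or_pos (finrank k L) with h0 | h0
  · have := Module.finrank_zero_iff.1 h0
    rw [Subsingleton.elim ⁅x, v⁆ 0]
    exact S.zero_mem
  · have h1 := coeff_mem S (finrank k L + 1)
      (fun i => ((i.factorial : k)⁻¹) • ((LieAlgebra.ad k L x) ^ i) v)
      (by
        refine h.mono fun t ht => ?_
        rw [Set.mem_setOf_eq] at ht ⊢
        rw [← eu_smul_apply]
        exact ht) (i := 1) (by omega)
    simpa using h1

/-- The linear terms of two equal curves. -/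
theorem ad_eq_of_eu [CharZero k] [Module.Finite k L] {x y v : L}
    (h : {t : k | eu k (t • x) v = eu k (t • y) v}.Infinite) : ⁅x, v⁆ = ⁅y, v⁆ := by
  rcases Nat.eq_zero_or_pos (finrank k L) with h0 | h0
  · have := Module.finrank_zero_iff.1 h0
    exact Subsingleton.elim _ _
  · have h1 := coeff_mem (⊥ : Submodule k L) (finrank k L + 1)
      (fun i => ((i.factorial : k)⁻¹) • ((LieAlgebra.ad k L x) ^ i) v -
        ((i.factorial : k)⁻¹) • ((LieAlgebra.ad k L y) ^ i) v)
      (by
        refine h.mono fun t ht => ?_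
        rw [Set.mem_setOf_eq] at ht ⊢
        simp only [smul_sub, Finset.sum_sub_distrib]
        rw [← eu_smul_apply, ← eu_smul_apply, ht, sub_self]
        exact Submodule.zero_mem _) (i := 1) (by omega)
    rw [Submodule.mem_bot, sub_eq_zero] at h1
    simpa using h1

theorem ex_eq [CharZero k] {V : Type} [AddCommGroup V] [Module k V] [Module.Finite k V]
    [Module ℚ V] {X : Module.End k V} (hX : IsNilpotent X) : ex X = IsNilpotent.exp X := by
  rw [IsNilpotent.exp_eq_sum (pow_eq_zero' hX (Nat.le_succ _))]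
  unfold ex
  refine Finset.sum_congr rfl fun i _ => ?_
  ext v
  rw [LinearMap.smul_apply, LinearMap.smul_apply]
  have := map_inv_natCast_smul (LinearMap.id : V →ₗ[k] V) k ℚ i.factorial ((X ^ i) v)
  simpa using this

/-- `exp (ad x)` is an automorphism. -/
theorem eu_lie [CharZero k] [Module.Finite k L] {x : L} (hx : Nil k x) (a b : L) :
    eu k x ⁅a, b⁆ = ⁅eu k x a, eu k x b⁆ := by
  letI : Module ℚ L := Module.compHom L (algebraMap ℚ k)
  letI := LieRing.toNonUnitalNonAssocRing L
  have : SMulCommClass k L L := LieAlgebra.smulCommClass k L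
  have : IsScalarTower k L L := LieAlgebra.isScalarTower k L
  have h := Module.End.exp_mul_of_derivation k L (LieAlgebra.ad k L x)
    (fun a b => by
      show ⁅x, ⁅a, b⁆⁆ = ⁅a, ⁅x, b⁆⁆ + ⁅⁅x, a⁆, b⁆
      rw [leibniz_lie x a b, add_comm]) hx a b
  unfold eu
  rw [ex_eq hx]
  exact h

theorem eu_inj_right [CharZero k] [Module.Finite k L] {x : L} (hx : Nil k x) :
    eu k (-x) * eu k x = 1 := by
  letI : Module ℚ L := Module.compHom L (algebraMap ℚ k)
  have hx' := Nil.neg hx
  unfold eu
  rw [ex_eq hx, ex_eq hx', map_neg]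
  exact IsNilpotent.exp_neg_mul_exp_self hx

/-- Conjugation of exponentials. -/
theorem eu_conj' {T : Module.End k L} (hT : ∀ x y : L, T ⁅x, y⁆ = ⁅T x, T y⁆) (x v : L) :
    T (eu k x v) = eu k (T x) (T v) := by
  rw [eu_apply, eu_apply, map_sum]
  have key : ∀ i : ℕ, T (((LieAlgebra.ad k L x) ^ i) v) = ((LieAlgebra.ad k L (T x)) ^ i) (T v) := by
    intro i
    induction i with
    | zero => simp
    | succ i ih =>
      rw [pow_succ', pow_succ', Module.End.mul_apply, Module.End.mul_apply, ← ih]
      exact hT x _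
  refine Finset.sum_congr rfl fun i _ => ?_
  rw [map_smul, key]

end lie

end Vale.Agent.P092.H144.Rp
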