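import Vale.Agent.P092.H144.Rp.Exp
import Mathlib.LinearAlgebra.Eigenspace.Minpoly
import Mathlib.Algebra.Lie.Semisimple.Defs
import Mathlib.Algebra.Lie.Ideal

/-!
P092, project RP (helper144): the nilpotent elements span a simple isotropic Lie algebra; subspaces
which are stable under the exponentials.
-/

set_option linter.all false

open Module

namespace Vale.Agent.P092.H144.Rp

open Vale.Agent.P092.H213.Rp

variable {k L : Type} [Field k] [LieRing L] [LieAlgebra k L]

theorem mem_egs {h x : L} {i : ℤ} : x ∈ egs k h i ↔ ⁅h, x⁆ = (i : k) • x := by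
  unfold egs
  rw [Module.End.mem_eigenspace_iff]
  rfl

theorem lie_egs {h x y : L} {i j : ℤ} (hx : x ∈ egs k h i) (hy : y ∈ egs k h j) :
    ⁅x, y⁆ ∈ egs k h (i + j) := by
  rw [mem_egs] at hx hy ⊢
  rw [leibniz_lie, hx, hy, smul_lie, lie_smul, Int.cast_add, add_smul]

theorem egs_bdd [CharZero k] [Module.Finite k L] (h : L) :
    ∃ B : ℤ, 0 ≤ B ∧ ∀ j : ℤ, B < |j| → egs k h j = ⊥ := by
  have h1 : Set.Finite {μ : k | (LieAlgebra.ad k L h).HasEigenvalue μ} :=
    Module.End.finite_hasEigenvalue _
  have h2 : Set.Finite {j : ℤ | (LieAlgebra.ad k L h).HasEigenvalue (j : k)} :=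
    h1.preimage Int.cast_injective.injOn
  obtain ⟨B, hB⟩ := (h2.image fun j => |j|).bddAbove
  refine ⟨max B 0, le_max_right _ _, fun j hj => ?_⟩
  by_contra hne
  have h3 : |j| ≤ B := hB ⟨j, hne, rfl⟩
  exact absurd (lt_of_le_of_lt (le_max_left B 0) hj) (not_lt.2 h3)

/-- Elements of nonzero degree are nilpotent. -/
theorem nil_egs [CharZero k] [Module.Finite k L] {h z : L} (hh : Spl k h) {i : ℤ} (hi : i ≠ 0)
    (hz : z ∈ egs k h i) : Nil k z := by
  obtain ⟨B, hB0, hB⟩ := egs_bdd (k := k) h
  have key : ∀ (m : ℕ) (j : ℤ) (v : L), v ∈ egs k h j →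
      ((LieAlgebra.ad k L z) ^ m) v ∈ egs k h (m * i + j) := by
    intro m
    induction m with
    | zero => intro j v hv; simpa using hv
    | succ m ih =>
      intro j v hv
      rw [pow_succ', Module.End.mul_apply]
      have h1 := lie_egs hz (ih j v hv)
      have h2 : i + (m * i + j) = ((m + 1 : ℕ) : ℤ) * i + j := by push_cast; ring
      rw [h2] at h1
      exact h1
  refine ⟨(2 * B + 1).toNat, ?_⟩
  rw [← LinearMap.ker_eq_top, eq_top_iff]
  unfold Spl at hh
  rw [← hh]
  refine iSup_le fun j v hv => ?_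
  rw [LinearMap.mem_ker]
  have h1 := key (2 * B + 1).toNat j v hv
  by_cases hj : B < |j|
  · rw [hB j hj, Submodule.mem_bot] at hv
    rw [hv, map_zero]
  · have h2 : B < |((2 * B + 1).toNat : ℤ) * i + j| := by
      rw [Int.toNat_of_nonneg (by omega)]
      have h3 : 1 ≤ |i| := Int.one_le_abs hi
      have h4 : |(2 * B + 1) * i| = (2 * B + 1) * |i| := by
        rw [abs_mul, abs_of_nonneg (by omega)]
      have h5 := abs_sub_abs_le_abs_sub ((2 * B + 1) * i) (-j)
      rw [sub_neg_eq_add, abs_neg] at h5
      nlinarith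
    rw [hB _ h2, Submodule.mem_bot] at h1
    exact h1

theorem Nil.map {T : Module.End k L} (hT : ∀ x y : L, T ⁅x, y⁆ = ⁅T x, T y⁆)
    (hs : Function.Surjective T) {x : L} (hx : Nil k x) : Nil k (T x) := by
  obtain ⟨m, hm⟩ := hx
  refine ⟨m, ?_⟩
  ext v
  obtain ⟨w, rfl⟩ := hs v
  have key : ∀ i : ℕ, T (((LieAlgebra.ad k L x) ^ i) w) = ((LieAlgebra.ad k L (T x)) ^ i) (T w) := by
    intro i
    induction i with
    | zero => simp
    | succ i ih =>
      rw [pow_succ', pow_succ', Module.End.mul_apply, Module.End.mul_apply, ← ih]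
      exact hT x _
  rw [← key, hm, LinearMap.zero_apply, map_zero, LinearMap.zero_apply]

theorem eu_surj [CharZero k] [Module.Finite k L] {x : L} (hx : Nil k x) :
    Function.Surjective (eu k x) := fun v => ⟨eu k (-x) v, by
  have h := eu_inj_right (Nil.neg hx)
  rw [neg_neg] at h
  exact LinearMap.congr_fun h v⟩

theorem eu_inj [CharZero k] [Module.Finite k L] {x : L} (hx : Nil k x) :
    Function.Injective (eu k x) := fun v w hvw => by
  have h := eu_inj_right hx
  have h1 : (eu k (-x) * eu k x) v = (eu k (-x) * eu k x) w := by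
    rw [Module.End.mul_apply, Module.End.mul_apply, hvw]
  rwa [h] at h1

/-- The span of the nilpotent elements is a subalgebra. -/
theorem lie_span [CharZero k] [Module.Finite k L] {x y : L}
    (hx : x ∈ Submodule.span k {x : L | Nil k x}) (hy : y ∈ Submodule.span k {x : L | Nil k x}) :
    ⁅x, y⁆ ∈ Submodule.span k {x : L | Nil k x} := by
  induction hx using Submodule.span_induction with
  | mem x hx =>
    refine ad_mem_of_eu _ ?_
    have : {t : k | eu k (t • x) y ∈ Submodule.span k {x : L | Nil k x}} = Set.univ := by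
      refine Set.eq_univ_of_forall fun t => ?_
      have hle : Submodule.span k {x : L | Nil k x} ≤
          (Submodule.span k {x : L | Nil k x}).comap (eu k (t • x)) := by
        rw [Submodule.span_le]
        intro z hz
        exact Submodule.subset_span (Nil.map (eu_lie (Nil.smul hx t)) (eu_surj (Nil.smul hx t)) hz)
      exact hle hy
    rw [this]
    haveI : Infinite k := Infinite.of_injective (Nat.cast : ℕ → k) Nat.cast_injective
    exact Set.infinite_univ
  | zero => rw [zero_lie]; exact Submodule.zero_mem _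
  | add a b _ _ ha hb => rw [add_lie]; exact Submodule.add_mem _ ha hb
  | smul c a _ ha => rw [smul_lie]; exact Submodule.smul_mem _ _ ha

/-- **The nilpotent elements span.** -/
theorem span_nil [CharZero k] [Module.Finite k L] (hs : LieAlgebra.IsSimple k L)
    (iso : ∃ x : L, x ≠ 0 ∧ Nil k x)
    (jm : ∀ x : L, Nil k x → x ≠ 0 → ∃ h y, IsSl2Triple h x y)
    (spl : ∀ h x y : L, IsSl2Triple h x y → Spl k h) :
    Submodule.span k {x : L | Nil k x} = ⊤ := by
  obtain ⟨x, hx0, hx⟩ := iso
  obtain ⟨h, y, htr⟩ := jm x hx hx0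
  have hh := spl h x y htr
  let S : LieSubalgebra k L :=
    { Submodule.span k {x : L | Nil k x} with lie_mem' := fun ha hb => lie_span ha hb }
  let A := LieSubalgebra.lieSpan k L {x : L | ∃ i : ℤ, i ≠ 0 ∧ x ∈ egs k h i}
  have hAS : A ≤ S := by
    rw [LieSubalgebra.lieSpan_le]
    rintro z ⟨i, hi, hz⟩
    exact Submodule.subset_span (nil_egs hh hi hz)
  have hid : ∀ z a : L, a ∈ A → ⁅z, a⁆ ∈ A := by
    intro z a ha
    have hz : z ∈ ⨆ i : ℤ, egs k h i := by
      unfold Spl at hh
      rw [hh]
      trivial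
    refine Submodule.iSup_induction (egs k h) (motive := fun z => ⁅z, a⁆ ∈ A) hz ?_ ?_ ?_
    · intro j z hz
      by_cases hj : j = 0
      · subst hj
        induction ha using LieSubalgebra.lieSpan_induction with
        | mem u hu =>
          obtain ⟨i, hi, hu⟩ := hu
          have h1 := lie_egs hz hu
          rw [zero_add] at h1
          exact LieSubalgebra.subset_lieSpan ⟨i, hi, h1⟩
        | zero => rw [lie_zero]; exact A.zero_mem
        | add u v _ _ hu hv => rw [lie_add]; exact A.add_mem hu hv
        | smul t u _ hu => rw [lie_smul]; exact A.smul_mem _ hu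
        | lie u v hu' hv' hu hv =>
          rw [leibniz_lie]
          exact A.add_mem (A.lie_mem hu hv') (A.lie_mem hu' hv)
      · exact A.lie_mem (LieSubalgebra.subset_lieSpan ⟨j, hj, hz⟩) ha
    · rw [zero_lie]; exact A.zero_mem
    · intro u v hu hv
      rw [add_lie]; exact A.add_mem hu hv
  let I : LieIdeal k L := { A.toSubmodule with lie_mem := fun {z a} ha => hid z a ha }
  have hxI : x ∈ I := by
    refine LieSubalgebra.subset_lieSpan ⟨2, by norm_num, ?_⟩
    rw [mem_egs, htr.lie_h_e_nsmul]
    push_cast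
    exact (two_smul ℕ x).trans (two_smul k x).symm
  have hI : I = ⊤ := by
    rcases hs.eq_bot_or_eq_top I with h1 | h1
    · rw [h1, LieSubmodule.mem_bot] at hxI
      exact absurd hxI hx0
    · exact h1
  rw [eq_top_iff]
  intro v _
  have h2 : v ∈ I := by rw [hI]; trivial
  exact hAS h2

/-- Subspaces which are stable under the exponentials are trivial. -/
theorem ideal_of_eu [CharZero k] [Module.Finite k L] (hs : LieAlgebra.IsSimple k L)
    (span : Submodule.span k {x : L | Nil k x} = ⊤) (V : Submodule k L)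
    (hV : ∀ x : L, Nil k x → ∀ v ∈ V, eu k x v ∈ V) : V = ⊥ ∨ V = ⊤ := by
  have hid : ∀ z v : L, v ∈ V → ⁅z, v⁆ ∈ V := by
    intro z v hv
    have hz : z ∈ Submodule.span k {x : L | Nil k x} := by rw [span]; trivial
    induction hz using Submodule.span_induction with
    | mem x hx =>
      refine ad_mem_of_eu _ ?_
      have : {t : k | eu k (t • x) v ∈ V} = Set.univ :=
        Set.eq_univ_of_forall fun t => hV _ (Nil.smul hx t) v hv
      rw [this]
      haveI : Infinite k := Infinite.of_injective (Nat.cast : ℕ → k) Nat.cast_injective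
      exact Set.infinite_univ
    | zero => rw [zero_lie]; exact Submodule.zero_mem _
    | add a b _ _ ha hb => rw [add_lie]; exact Submodule.add_mem _ ha hb
    | smul c a _ ha => rw [smul_lie]; exact Submodule.smul_mem _ _ ha
  let I : LieIdeal k L := { V with lie_mem := fun {z a} ha => hid z a ha }
  rcases hs.eq_bot_or_eq_top I with h1 | h1
  · left
    rw [eq_bot_iff]
    intro v hv
    have h2 : v ∈ I := hv
    rw [h1, LieSubmodule.mem_bot] at h2
    rw [h2]
    exact Submodule.zero_mem _
  · right
    rw [eq_top_iff]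
    intro v _
    have h2 : v ∈ I := by rw [h1]; trivial
    exact h2

/-- The centre of a simple Lie algebra is zero. -/
theorem eq_zero_of_lie (hs : LieAlgebra.IsSimple k L) {z : L} (hz : ∀ v : L, ⁅z, v⁆ = 0) :
    z = 0 := by
  let I : LieIdeal k L :=
    { carrier := {z : L | ∀ v : L, ⁅z, v⁆ = 0}
      add_mem' := fun {a b} ha hb v => by rw [add_lie, ha v, hb v, add_zero]
      zero_mem' := fun v => zero_lie v
      smul_mem' := fun c a ha v => by rw [smul_lie, ha v, smul_zero]
      lie_mem := fun {y a} ha v => by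
        have h1 : ⁅y, a⁆ = 0 := by rw [← lie_skew, ha y, neg_zero]
        rw [h1, zero_lie] }
  rcases hs.eq_bot_or_eq_top I with h1 | h1
  · have h2 : z ∈ I := hz
    rw [h1, LieSubmodule.mem_bot] at h2
    exact h2
  · exfalso
    refine hs.non_abelian ⟨fun a b => ?_⟩
    have h2 : a ∈ I := by rw [h1]; trivial
    exact h2 b

end Vale.Agent.P092.H144.Rp
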