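import Vale.Agent.P092.H144.Rp.Rec
import Vale.Agent.P092.H213.Rp.Cls
import Vale.Agent.P092.H237.Rp.Tor
import Vale.Agent.P092.H268.Rp.Spl

/-!
P092, project RP (helper144), [RP-P3b]: abstract simplicity, centre, homomorphisms to commutative
groups, centralisers of open subgroups and recurrence of conjugation for the groups of the class
`RP` (no further hypothesis).
-/

set_option linter.all false

open Filter Topology Module

namespace Vale.Agent.P092.H144.Rp

open Vale.Agent.P092.H213.Rp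

variable {k : Type} [NontriviallyNormedField k] [CompleteSpace k] [CharZero k] {L : Type}
  [LieRing L] [LieAlgebra k L] {n : ℕ}
  {G : Type} [Group G] [TopologicalSpace G] {b : Basis (Fin n) k L} {ρ : G →* Module.End k L}

theorem span_rp (hρ : RP b ρ) : Submodule.span k {x : L | Nil k x} = ⊤ := by
  haveI := fin_of b
  exact span_all hρ.simple hρ.iso

theorem jm_rp (hρ : RP b ρ) (x : L) (hx : Nil k x) (h0 : x ≠ 0) :
    ∃ h y : L, IsSl2Triple h x y := by
  haveI := fin_of b
  exact jm_all hρ.simple x hx h0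

theorem spl_rp (hρ : RP b ρ) (h x y : L) (t : IsSl2Triple h x y) : Spl k h := by
  haveI := fin_of b
  exact H268.Rp.spl t

/-- The torus of a triple, in `G`. -/
theorem aut_rp (hρ : RP b ρ) (h x y : L) (tr : IsSl2Triple h x y) (t : kˣ) :
    ∃ a : G, ∀ (i : ℤ), ∀ z ∈ egs k h i, ρ a z = ((t : k) ^ i) • z := by
  haveI := fin_of b
  have hx : Nil k x := H268.Rp.nil_e tr
  have hy : Nil k y := H268.Rp.nil_f tr
  obtain ⟨g1, h1⟩ := hρ.full _ (Nil.smul hx ((t : k) - 1))
  obtain ⟨g2, h2⟩ := hρ.full _ hy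
  obtain ⟨g3, h3⟩ := hρ.full _ (Nil.smul hx ((t : k)⁻¹ - 1))
  obtain ⟨g4, h4⟩ := hρ.full _ (Nil.neg (Nil.smul hy (t : k)))
  refine ⟨g1 * g2 * g3 * g4, fun i z hz => ?_⟩
  rw [map_mul, map_mul, map_mul, h1, h2, h3, h4]
  exact H237.Rp.ta_apply tr (H268.Rp.spl tr) t.ne_zero hz

/-- **`G` is abstractly simple.** -/
theorem simple (hρ : RP b ρ) (N : Subgroup G) (hN : N.Normal) : N = ⊥ ∨ N = ⊤ :=
  simple_of hρ (span_rp hρ) (jm_rp hρ) (aut_rp hρ) (fun N z => Crv b ρ N z)
    (fun N h => by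
      haveI := fin_of b
      exact isOpen_of_crv hρ h)
    (fun N hN m hm g y hy => by
      haveI := fin_of b
      exact crv_comm hρ hN hm g hy) N hN

theorem center_bot (hρ : RP b ρ) : Subgroup.center G = ⊥ := center_eq_bot hρ (span_rp hρ)

theorem cent_rp (hρ : RP b ρ) (g : G) (hg : g ≠ 1) :
    ¬ IsOpen ((Subgroup.centralizer {g} : Subgroup G) : Set G) := cent hρ (span_rp hρ) g hg

theorem hom_rp (hρ : RP b ρ) (A : Type) [CommGroup A] (f : G →* A) : f = 1 :=
  hom_eq_one hρ (span_rp hρ) (simple hρ) A f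

/-- **Recurrence of conjugation.** -/
theorem recu (hρ : RP b ρ) : PA.Rec G :=
  rec_of fun z hz => rec_fun hρ (span_rp hρ) (jm_rp hρ) (spl_rp hρ) (aut_rp hρ) (simple hρ) z hz

end Vale.Agent.P092.H144.Rp
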