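import Vale.Agent.P092.H144.Rp.Simple
import Vale.Agent.P092.H213.Rp.Top
import Vale.Agent.P092.PA.Fac

/-!
P092, project RP (helper144): recurrence of conjugation.
-/

set_option linter.all false

open Filter Topology Module

namespace Vale.Agent.P092.H144.Rp

open Vale.Agent.P092.H213.Rp

/-- Recurrence from functions which are scaled by a conjugation. -/
theorem rec_of {E : Type} [Group E] [TopologicalSpace E]
    (h : ∀ z : E, z ≠ 1 → ∃ (f : E → ℝ) (D : E) (q : ℝ), Continuous f ∧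
      1 < q ∧ (∀ g, f (D * g * D⁻¹) = q * f g) ∧ 0 < f z) : PA.Rec E := by
  intro z hz
  obtain ⟨f, D, ρ, hf, hρ, hD, hfz⟩ := h z hz
  have hDi : ∀ (i : ℕ) g, f (D ^ i * g * (D ^ i)⁻¹) = ρ ^ i * f g := by
    intro i
    induction i with
    | zero => intro g; simp
    | succ i ih =>
      intro g
      have e : D ^ (i + 1) * g * (D ^ (i + 1))⁻¹ = D * (D ^ i * g * (D ^ i)⁻¹) * D⁻¹ := by
        rw [pow_succ']; group
      rw [e, hD, ih, pow_succ']
      ring
  set α : ℝ := 2 * f z / (1 + ρ) with hα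
  have hα0 : 0 < α := by positivity
  have hzα : α < f z := by
    rw [hα, div_lt_iff₀ (by linarith)]
    nlinarith
  have hzβ : f z < ρ * α := by
    rw [hα, ← mul_div_assoc, lt_div_iff₀ (by linarith)]
    nlinarith
  refine ⟨f ⁻¹' Set.Ioo α (ρ * α), (isOpen_Ioo.preimage hf).mem_nhds ⟨hzα, hzβ⟩,
    fun i => D ^ i, ?_⟩
  have key : ∀ i j : ℕ, i < j → ∀ w1 ∈ f ⁻¹' Set.Ioo α (ρ * α), ∀ w2 ∈ f ⁻¹' Set.Ioo α (ρ * α),
      D ^ i * w1 * (D ^ i)⁻¹ ≠ D ^ j * w2 * (D ^ j)⁻¹ := by
    intro i j hij w1 hw1 w2 hw2 he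
    have h2 := congrArg f he
    rw [hDi, hDi] at h2
    have h3 : ρ ^ i * f w1 < ρ ^ i * (ρ * α) := mul_lt_mul_of_pos_left hw1.2 (by positivity)
    have h4 : ρ ^ j * α < ρ ^ j * f w2 := mul_lt_mul_of_pos_left hw2.1 (by positivity)
    have h5 : ρ ^ i * (ρ * α) ≤ ρ ^ j * α := by
      have : ρ ^ (i + 1) ≤ ρ ^ j := pow_le_pow_right₀ hρ.le hij
      calc ρ ^ i * (ρ * α) = ρ ^ (i + 1) * α := by ring
        _ ≤ ρ ^ j * α := mul_le_mul_of_nonneg_right this hα0.le
    linarith
  intro i j hij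
  refine Set.disjoint_left.2 ?_
  rintro y ⟨w1, hw1, rfl⟩ ⟨w2, hw2, he⟩
  rcases lt_or_gt_of_ne hij with h | h
  · exact key i j h w1 hw1 w2 hw2 he.symm
  · exact key j i h w2 hw2 w1 hw1 he

variable {k : Type} [NontriviallyNormedField k] {L : Type} [LieRing L] [LieAlgebra k L] {n : ℕ}
  {G : Type} [Group G] [TopologicalSpace G] {b : Basis (Fin n) k L} {ρ : G →* Module.End k L}

/-- Matrix coefficients are continuous. -/
theorem cont_coeff (hρ : RP b ρ) (φ : L →ₗ[k] k) (v : L) : Continuous fun g : G => φ (ρ g v) := by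
  have h1 : ∀ g : G, φ (ρ g v) = ∑ i, (∑ j, LinearMap.toMatrix b b (ρ g) i j * b.repr v j) *
      φ (b i) := by
    intro g
    have h2 := LinearMap.toMatrix_mulVec_repr b b (ρ g) v
    conv_lhs => rw [← b.sum_repr (ρ g v), map_sum]
    refine Finset.sum_congr rfl fun i _ => ?_
    rw [map_smul, smul_eq_mul, ← h2]
    rfl
  have h3 : (fun g : G => φ (ρ g v)) = fun g : G =>
      ∑ i, (∑ j, LinearMap.toMatrix b b (ρ g) i j * b.repr v j) * φ (b i) := funext h1
  rw [h3]
  have h4 : Continuous fun g : G => LinearMap.toMatrix b b (ρ g) := hρ.emb.continuous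
  refine continuous_finsetSum _ fun i _ => Continuous.mul (continuous_finsetSum _ fun j _ =>
    Continuous.mul ?_ continuous_const) continuous_const
  exact (continuous_apply j).comp ((continuous_apply i).comp h4)

/-- An element outside the sum of the other eigenspaces is seen by a functional. -/
theorem mem_egs_of_forall [CharZero k] {h : L} (hs : Spl k h) {j : ℤ} {u : L}
    (H : ∀ i : ℤ, i ≠ j → u ∈ ⨆ (i' : ℤ) (_ : i' ≠ i), egs k h i') : u ∈ egs k h j := by
  have hu : u ∈ ⨆ i : ℤ, egs k h i := by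
    unfold Spl at hs
    rw [hs]
    trivial
  obtain ⟨f, hf, hsum⟩ := (Submodule.mem_iSup_iff_exists_finsupp _ _).1 hu
  have hind : iSupIndep fun i : ℤ => egs k h i :=
    (Module.End.eigenspaces_iSupIndep (LieAlgebra.ad k L h)).comp
      (f := fun i : ℤ => (i : k)) Int.cast_injective
  have h0 : ∀ i, i ≠ j → f i = 0 := by
    intro i hij
    have h1 : f i ∈ ⨆ (i' : ℤ) (_ : i' ≠ i), egs k h i' := by
      by_cases hi : i ∈ f.support
      · have h2 : u = f i + ∑ i' ∈ f.support.erase i, f i' := by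
          rw [← hsum, Finsupp.sum, Finset.add_sum_erase _ _ hi]
        have h3 : f i = u - ∑ i' ∈ f.support.erase i, f i' := by
          rw [h2, add_sub_cancel_right]
        rw [h3]
        refine Submodule.sub_mem _ (H i hij) (Submodule.sum_mem _ fun i' hi' => ?_)
        exact Submodule.mem_iSup_of_mem i' (Submodule.mem_iSup_of_mem (Finset.ne_of_mem_erase hi')
          (hf i'))
      · rw [Finsupp.notMem_support_iff.1 hi]
        exact Submodule.zero_mem _
    have h2 := (hind i).le_bot (x := f i) ⟨hf i, h1⟩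
    exact (Submodule.mem_bot k).1 h2
  have h1 : u = f j := by
    rw [← hsum, Finsupp.sum, Finset.sum_eq_single j]
    · intro i _ hij
      exact h0 i hij
    · intro hj
      exact Finsupp.notMem_support_iff.1 hj
  rw [h1]
  exact hf j

/-- The functions for the recurrence. -/
theorem rec_fun [CharZero k] (hρ : RP b ρ) (span : Submodule.span k {x : L | Nil k x} = ⊤)
    (jm : ∀ x : L, Nil k x → x ≠ 0 → ∃ h y, IsSl2Triple h x y)
    (spl : ∀ h x y : L, IsSl2Triple h x y → Spl k h)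
    (aut : ∀ h x y : L, IsSl2Triple h x y → ∀ t : kˣ, ∃ a : G, ∀ (i : ℤ), ∀ z ∈ egs k h i,
      ρ a z = ((t : k) ^ i) • z)
    (simple : ∀ N : Subgroup G, N.Normal → N = ⊥ ∨ N = ⊤) (z : G) (hz : z ≠ 1) :
    ∃ (f : G → ℝ) (D : G) (q : ℝ), Continuous f ∧
      1 < q ∧ (∀ g, f (D * g * D⁻¹) = q * f g) ∧ 0 < f z := by
  haveI := fin_of b
  haveI : IsTopologicalGroup G := H213.Rp.topGroup hρ.emb.isEmbedding
  obtain ⟨x, hx0, hx⟩ := hρ.iso
  obtain ⟨h, y, htr⟩ := jm x hx hx0
  have hs := spl h x y htr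
  have hx2 : x ∈ egs k h 2 := by
    rw [mem_egs, htr.lie_h_e_nsmul]
    push_cast
    exact (two_smul ℕ x).trans (two_smul k x).symm
  obtain ⟨t₀, ht₀⟩ := NormedField.exists_one_lt_norm k
  have ht0 : t₀ ≠ 0 := by
    rintro rfl
    rw [norm_zero] at ht₀
    linarith
  -- a conjugate of `z` with a nonzero coefficient between different eigenspaces
  have key : ∃ (c : G) (i j : ℤ) (v : L), i ≠ j ∧ v ∈ egs k h j ∧
      ρ (c * z * c⁻¹) v ∉ ⨆ (i' : ℤ) (_ : i' ≠ i), egs k h i' := by
    by_contra hcon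
    push Not at hcon
    obtain ⟨a, ha⟩ := aut h x y htr (Units.mk0 t₀ ht0)
    have h1 : ∀ c : G, a * (c * z * c⁻¹) = (c * z * c⁻¹) * a := by
      intro c
      apply inj hρ
      ext v
      rw [map_mul ρ a, map_mul ρ (c * z * c⁻¹) a, Module.End.mul_apply, Module.End.mul_apply]
      have hv : v ∈ ⨆ i : ℤ, egs k h i := by
        unfold Spl at hs
        rw [hs]
        trivial
      refine Submodule.iSup_induction (fun i : ℤ => egs k h i)
        (motive := fun v => ρ a (ρ (c * z * c⁻¹) v) = ρ (c * z * c⁻¹) (ρ a v)) hv ?_ ?_ ?_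
      · intro j v hv
        have h2 : ρ (c * z * c⁻¹) v ∈ egs k h j :=
          mem_egs_of_forall hs fun i hij => hcon c i j v hij hv
        rw [ha j _ h2, ha j v hv, map_smul]
      · rw [map_zero, map_zero, map_zero]
      · intro u w hu hw
        rw [map_add, map_add, map_add, map_add, hu, hw]
    have h2 : Subgroup.centralizer {z} = (⊤ : Subgroup G) := by
      have h3 : Subgroup.normalClosure {a} ≤ Subgroup.centralizer {z} := by
        rw [Subgroup.normalClosure, Subgroup.closure_le]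
        intro u hu
        obtain ⟨a', ha', hc⟩ := Group.mem_conjugatesOfSet_iff.1 hu
        rw [Set.mem_singleton_iff] at ha'
        subst ha'
        obtain ⟨c, rfl⟩ := isConj_iff.1 hc
        refine Subgroup.mem_centralizer_iff.2 fun z' hz' => ?_
        rw [Set.mem_singleton_iff] at hz'
        subst hz'
        have h4 := h1 c⁻¹
        rw [inv_inv] at h4
        calc z' * (c * a' * c⁻¹) = c * ((c⁻¹ * z' * c) * a') * c⁻¹ := by group
          _ = c * (a' * (c⁻¹ * z' * c)) * c⁻¹ := by rw [h4]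
          _ = (c * a' * c⁻¹) * z' := by group
      rcases simple (Subgroup.normalClosure {a}) Subgroup.normalClosure_normal with h4 | h4
      · exfalso
        have h5 : a ∈ Subgroup.normalClosure {a} := Subgroup.subset_normalClosure rfl
        rw [h4, Subgroup.mem_bot] at h5
        have h6 := ha 2 x hx2
        rw [h5, map_one, Module.End.one_apply, Units.val_mk0, zpow_ofNat] at h6
        have h7 : (t₀ ^ 2 - 1) • x = 0 := by rw [sub_smul, one_smul, ← h6, sub_self]
        rcases smul_eq_zero.1 h7 with h8 | h8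
        · have h9 : ‖t₀ ^ 2‖ = 1 := by rw [sub_eq_zero.1 h8, norm_one]
          rw [norm_pow] at h9
          nlinarith
        · exact hx0 h8
      · rw [eq_top_iff, ← h4]
        exact h3
    apply hz
    have h3 : z ∈ Subgroup.center G := by
      rw [Subgroup.mem_center_iff]
      intro u
      have h4 : u ∈ Subgroup.centralizer {z} := by rw [h2]; trivial
      exact (Subgroup.mem_centralizer_iff.1 h4 z rfl).symm
    rw [center_eq_bot hρ span, Subgroup.mem_bot] at h3
    exact h3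
  obtain ⟨c, i, j, v, hij, hv, hne⟩ := key
  obtain ⟨φ, hφ, hφ0⟩ := Submodule.exists_le_ker_of_notMem hne
  -- the element which expands
  obtain ⟨t, ht⟩ : ∃ t : kˣ, 1 < ‖(t : k) ^ (i - j)‖ := by
    rcases lt_or_gt_of_ne hij with h1 | h1
    · refine ⟨(Units.mk0 t₀ ht0)⁻¹, ?_⟩
      rw [Units.val_inv_eq_inv_val, Units.val_mk0, inv_zpow, ← zpow_neg, norm_zpow]
      exact one_lt_zpow₀ ht₀ (by omega)
    · refine ⟨Units.mk0 t₀ ht0, ?_⟩
      rw [Units.val_mk0, norm_zpow]
      exact one_lt_zpow₀ ht₀ (by omega)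
  obtain ⟨a, ha⟩ := aut h x y htr t
  have ha' : ∀ w : L, φ (ρ a w) = (t : k) ^ i * φ w := by
    intro w
    have hw : w ∈ ⨆ i : ℤ, egs k h i := by
      unfold Spl at hs
      rw [hs]
      trivial
    refine Submodule.iSup_induction (fun i : ℤ => egs k h i)
      (motive := fun w => φ (ρ a w) = (t : k) ^ i * φ w) hw ?_ ?_ ?_
    · intro l w hw
      rw [ha l w hw, map_smul, smul_eq_mul]
      rcases eq_or_ne l i with h1 | h1
      · rw [h1]
      · have h2 : φ w = 0 := hφ0 (Submodule.mem_iSup_of_mem l (Submodule.mem_iSup_of_mem h1 hw))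
        rw [h2, mul_zero, mul_zero]
    · rw [map_zero, map_zero, mul_zero]
    · intro u w hu hw
      rw [map_add, map_add, map_add, hu, hw, mul_add]
  have ht1 : (t : k) ≠ 0 := t.ne_zero
  have hav : ρ a⁻¹ v = ((t : k) ^ j)⁻¹ • v := by
    have h1 := ha j v hv
    have h2 : ((t : k) ^ j) • ρ a⁻¹ v = v := by rw [← map_smul, ← h1, inv_mul]
    calc ρ a⁻¹ v = ((t : k) ^ j)⁻¹ • (((t : k) ^ j) • ρ a⁻¹ v) := by
          rw [smul_smul, inv_mul_cancel₀ (zpow_ne_zero _ ht1), one_smul]
      _ = ((t : k) ^ j)⁻¹ • v := by rw [h2]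
  refine ⟨fun g => ‖φ (ρ (c * g * c⁻¹) v)‖, c⁻¹ * a * c, ‖(t : k) ^ (i - j)‖, ?_, ht, ?_,
    norm_pos_iff.2 hφ⟩
  · exact ((cont_coeff hρ φ v).comp (by fun_prop : Continuous fun g : G => c * g * c⁻¹)).norm
  · intro g
    have e : c * (c⁻¹ * a * c * g * (c⁻¹ * a * c)⁻¹) * c⁻¹ = a * (c * g * c⁻¹) * a⁻¹ := by group
    dsimp only
    rw [e, map_mul, map_mul, Module.End.mul_apply, Module.End.mul_apply, hav, map_smul, map_smul,
      map_smul, ha', smul_eq_mul, ← mul_assoc, norm_mul, zpow_sub₀ ht1, div_eq_mul_inv,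
      mul_comm (((t : k) ^ j)⁻¹)]

end Vale.Agent.P092.H144.Rp
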