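import Vale.Agent.P092.H144.Rp.Span
import Mathlib.Topology.Algebra.Group.Basic
import Mathlib.Topology.Algebra.OpenSubgroup
import Mathlib.Analysis.Normed.Field.Lemmas
import Mathlib.GroupTheory.Abelianization.Defs

/-!
P092, project RP (helper144): the group generated by the exponentials of the nilpotent elements of a
simple isotropic Lie algebra is abstractly simple, with trivial centre; centralisers of open
subgroups are trivial. Given: the criterion for open subgroups (helper213) and the tori of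
`sl_2` triples (helper268, helper237).
-/

set_option linter.all false

open Filter Topology Module

namespace Vale.Agent.P092.H144.Rp

open Vale.Agent.P092.H213.Rp

variable {k : Type} [NontriviallyNormedField k] {L : Type} [LieRing L] [LieAlgebra k L] {n : ℕ}
  {G : Type} [Group G] [TopologicalSpace G] {b : Basis (Fin n) k L} {ρ : G →* Module.End k L}

theorem fin_of (b : Basis (Fin n) k L) : Module.Finite k L := Module.Finite.of_basis b

theorem inj (hρ : RP b ρ) : Function.Injective ρ := fun g g' h =>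
  hρ.emb.injective (by show LinearMap.toMatrix b b (ρ g) = LinearMap.toMatrix b b (ρ g'); rw [h])

theorem inv_mul (g : G) (v : L) : ρ g⁻¹ (ρ g v) = v := by
  rw [← Module.End.mul_apply, ← map_mul, inv_mul_cancel, map_one, Module.End.one_apply]

theorem mul_inv (g : G) (v : L) : ρ g (ρ g⁻¹ v) = v := by
  rw [← Module.End.mul_apply, ← map_mul, mul_inv_cancel, map_one, Module.End.one_apply]

theorem surj (g : G) : Function.Surjective (ρ g) := fun v => ⟨ρ g⁻¹ v, mul_inv g v⟩

/-- Conjugates of exponentials. -/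
theorem conj_eu (hρ : RP b ρ) {g u : G} {x : L} (hu : ρ u = eu k x) :
    ρ (g * u * g⁻¹) = eu k (ρ g x) := by
  ext v
  rw [map_mul, map_mul, Module.End.mul_apply, Module.End.mul_apply, hu,
    eu_conj' (hρ.lie g), mul_inv]

/-- The matrices of a one parameter group. -/
theorem cont_mat (b : Basis (Fin n) k L) (x : L) :
    Continuous fun s : k => LinearMap.toMatrix b b (eu k (s • x)) := by
  have h : ∀ s : k, eu k (s • x) = ∑ i ∈ Finset.range (finrank k L + 1),
      s ^ i • (((i.factorial : k)⁻¹) • (LieAlgebra.ad k L x) ^ i) := by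
    intro s
    ext v
    rw [eu_smul_apply, LinearMap.sum_apply]
    rfl
  have h2 : (fun s : k => LinearMap.toMatrix b b (eu k (s • x))) = fun s =>
      ∑ i ∈ Finset.range (finrank k L + 1),
        s ^ i • LinearMap.toMatrix b b (((i.factorial : k)⁻¹) • (LieAlgebra.ad k L x) ^ i) := by
    funext s
    rw [h, map_sum]
    exact Finset.sum_congr rfl fun i _ => map_smul _ _ _
  rw [h2]
  exact continuous_finsetSum _ fun i _ => (continuous_pow i).smul continuous_const

/-- One parameter groups in `G`. -/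
theorem exists_curve [CharZero k] (hρ : RP b ρ) {x : L} (hx : Nil k x) :
    ∃ w : k → G, Continuous w ∧ (∀ s, ρ (w s) = eu k (s • x)) ∧ w 0 = 1 := by
  haveI := fin_of b
  choose w hw using fun s : k => hρ.full _ (Nil.smul hx s)
  refine ⟨w, ?_, hw, ?_⟩
  · rw [hρ.emb.isInducing.continuous_iff]
    have h1 : ((fun g => LinearMap.toMatrix b b (ρ g)) ∘ w) =
        fun s => LinearMap.toMatrix b b (eu k (s • x)) := by
      funext s
      show LinearMap.toMatrix b b (ρ (w s)) = _
      rw [hw]
    rw [h1]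
    exact cont_mat b x
  · apply inj hρ
    rw [hw, map_one, zero_smul]
    ext v
    rw [eu_apply, Finset.sum_eq_single 0]
    · simp
    · intro i _ hi
      rw [map_zero, zero_pow hi, LinearMap.zero_apply, smul_zero]
    · intro h
      exact absurd (Finset.mem_range.2 (Nat.succ_pos _)) h

/-- `ρ g` is determined by the nilpotent elements. -/
theorem eq_one_of_fix (hρ : RP b ρ) (span : Submodule.span k {x : L | Nil k x} = ⊤) {g : G}
    (h : ∀ x : L, Nil k x → ρ g x = x) : g = 1 := by
  apply inj hρ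
  rw [map_one]
  ext v
  have hv : v ∈ Submodule.span k {x : L | Nil k x} := by rw [span]; trivial
  rw [Module.End.one_apply]
  induction hv using Submodule.span_induction with
  | mem x hx => exact h x hx
  | zero => exact map_zero _
  | add a c _ _ ha hc => rw [map_add, ha, hc]
  | smul c a _ ha => rw [map_smul, ha]

/-- An element which commutes with infinitely many elements of each one parameter group. -/
theorem eq_one_of_comm [CharZero k] (hρ : RP b ρ)
    (span : Submodule.span k {x : L | Nil k x} = ⊤) {g : G}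
    (h : ∀ x : L, Nil k x → {s : k | ∃ u : G, ρ u = eu k (s • x) ∧ g * u = u * g}.Infinite) :
    g = 1 := by
  haveI := fin_of b
  refine eq_one_of_fix hρ span fun x hx => ?_
  rw [← sub_eq_zero]
  refine eq_zero_of_lie (k := k) hρ.simple fun v => ?_
  rw [sub_lie, sub_eq_zero]
  refine ad_eq_of_eu (k := k) ((h x hx).mono ?_)
  rintro s ⟨u, hu, hc⟩
  have h1 : g * u * g⁻¹ = u := by rw [hc]; group
  have h2 := conj_eu hρ (g := g) hu
  rw [h1, hu, map_smul] at h2
  show eu k (s • ρ g x) v = eu k (s • x) v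
  rw [← h2]

theorem center_eq_bot [CharZero k] (hρ : RP b ρ)
    (span : Submodule.span k {x : L | Nil k x} = ⊤) : Subgroup.center G = ⊥ := by
  rw [eq_bot_iff]
  intro g hg
  rw [Subgroup.mem_bot]
  haveI : Infinite k := Infinite.of_injective (Nat.cast : ℕ → k) Nat.cast_injective
  refine eq_one_of_comm hρ span fun x hx => ?_
  have : {s : k | ∃ u : G, ρ u = eu k (s • x) ∧ g * u = u * g} = Set.univ := by
    refine Set.eq_univ_of_forall fun s => ?_
    obtain ⟨u, hu⟩ := hρ.full _ (Nil.smul hx s)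
    exact ⟨u, hu, (Subgroup.mem_center_iff.1 hg u).symm⟩
  rw [this]
  exact Set.infinite_univ

/-- Centralisers of open subgroups are trivial. -/
theorem cent_nhds [CharZero k] (hρ : RP b ρ) (span : Submodule.span k {x : L | Nil k x} = ⊤)
    {g : G} (hg : {u : G | g * u = u * g} ∈ 𝓝 (1 : G)) : g = 1 := by
  refine eq_one_of_comm hρ span fun x hx => ?_
  obtain ⟨w, hw, hw1, hw0⟩ := exists_curve hρ hx
  have h1 : {s : k | g * w s = w s * g} ∈ 𝓝 (0 : k) := by
    have : Tendsto w (𝓝 0) (𝓝 1) := by rw [← hw0]; exact hw.tendsto 0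
    exact this hg
  have h2 : {s : k | g * w s = w s * g}.Infinite := infinite_of_mem_nhds 0 h1
  exact h2.mono fun s hs => ⟨w s, hw1 s, hs⟩

theorem cent [CharZero k] (hρ : RP b ρ) (span : Submodule.span k {x : L | Nil k x} = ⊤) (g : G)
    (hg : g ≠ 1) : ¬ IsOpen ((Subgroup.centralizer {g} : Subgroup G) : Set G) := by
  intro ho
  refine hg (cent_nhds hρ span ?_)
  refine Filter.mem_of_superset (ho.mem_nhds (Subgroup.one_mem _)) fun u hu => ?_
  exact Subgroup.mem_centralizer_iff.1 hu g rfl

/-- **Abstract simplicity**, given a predicate `Cv N z` ('there is a curve in `N` with tangent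
vector `z`') with the criterion for open subgroups. -/
theorem simple_of [CharZero k] (hρ : RP b ρ) (span : Submodule.span k {x : L | Nil k x} = ⊤)
    (jm : ∀ x : L, Nil k x → x ≠ 0 → ∃ h y, IsSl2Triple h x y)
    (aut : ∀ h x y : L, IsSl2Triple h x y → ∀ t : kˣ, ∃ a : G, ∀ (i : ℤ), ∀ z ∈ egs k h i,
      ρ a z = ((t : k) ^ i) • z)
    (Cv : Subgroup G → L → Prop)
    (op : ∀ N : Subgroup G, Submodule.span k {z | Cv N z} = ⊤ → IsOpen (N : Set G))
    (cv : ∀ N : Subgroup G, N.Normal → ∀ m ∈ N, ∀ (g : G) (y : L), Nil k y →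
      Cv N (ρ g (ρ m y - y))) (N : Subgroup G) (hN : N.Normal) : N = ⊥ ∨ N = ⊤ := by
  haveI := fin_of b
  rcases Subgroup.bot_or_exists_ne_one N with h | ⟨m, hm, hm1⟩
  · exact Or.inl h
  right
  have h1 : ∃ y : L, Nil k y ∧ ρ m y ≠ y := by
    by_contra hcon
    push Not at hcon
    exact hm1 (eq_one_of_fix hρ span hcon)
  obtain ⟨y, hy, hmy⟩ := h1
  let V : Submodule k L := Submodule.span k {z | ∃ (g : G) (y : L), Nil k y ∧ z = ρ g (ρ m y - y)}
  have hV : V = ⊤ := by
    have hst : ∀ x : L, Nil k x → ∀ v ∈ V, eu k x v ∈ V := by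
      intro x hx v hv
      obtain ⟨u, hu⟩ := hρ.full x hx
      rw [← hu]
      have hle : V ≤ V.comap (ρ u) := by
        refine Submodule.span_le.2 ?_
        rintro z ⟨g, y, hy, rfl⟩
        refine Submodule.subset_span ⟨u * g, y, hy, ?_⟩
        rw [map_mul, Module.End.mul_apply]
      exact hle hv
    rcases ideal_of_eu hρ.simple span V hst with h2 | h2
    · exfalso
      have h3 : ρ m y - y ∈ V := Submodule.subset_span ⟨1, y, hy, by
        rw [map_one, Module.End.one_apply]⟩
      rw [h2, Submodule.mem_bot, sub_eq_zero] at h3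
      exact hmy h3
    · exact h2
  have ho : IsOpen (N : Set G) := op N (by
    rw [eq_top_iff, ← hV]
    refine Submodule.span_mono ?_
    rintro z ⟨g, y, hy, rfl⟩
    exact cv N hN m hm g y hy)
  rw [eq_top_iff, ← hρ.gen, Subgroup.closure_le]
  rintro u ⟨x, hx, hu⟩
  rcases eq_or_ne x 0 with h0 | h0
  · have : u = 1 := by
      obtain ⟨w, -, hw1, hw0⟩ := exists_curve hρ hx
      apply inj hρ
      rw [hu, ← hw0, hw1, zero_smul, h0]
    rw [this]
    exact N.one_mem
  obtain ⟨h, y', htr⟩ := jm x hx h0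
  obtain ⟨w, hw, hw1, hw0⟩ := exists_curve hρ hx
  have h2 : {s : k | w (s ^ 2) ∈ N} ∈ 𝓝 (0 : k) := by
    have h3 : Tendsto (fun s : k => w (s ^ 2)) (𝓝 0) (𝓝 1) := by
      have : (1 : G) = w ((0 : k) ^ 2) := by rw [zero_pow two_ne_zero, hw0]
      rw [this]
      exact (hw.comp (continuous_pow 2)).tendsto 0
    exact h3 (ho.mem_nhds N.one_mem)
  obtain ⟨s, hs, hs0⟩ : ∃ s : k, w (s ^ 2) ∈ N ∧ s ≠ 0 := by
    have h3 : ∃ᶠ s : k in 𝓝[≠] (0 : k), True := Filter.frequently_true_iff_neBot _ |>.2 inferInstance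
    obtain ⟨s, hs⟩ := (h3.and_eventually ((eventually_nhdsWithin_of_eventually_nhds
      (h2 : ∀ᶠ s in 𝓝 (0 : k), w (s ^ 2) ∈ N)).and self_mem_nhdsWithin)).exists
    exact ⟨s, hs.2.1, hs.2.2⟩
  obtain ⟨a, ha⟩ := aut h x y' htr (Units.mk0 s hs0)
  have hx2 : x ∈ egs k h 2 := by
    rw [mem_egs, htr.lie_h_e_nsmul]
    push_cast
    exact (two_smul ℕ x).trans (two_smul k x).symm
  have h4 : ρ (a * u * a⁻¹) = ρ (w (s ^ 2)) := by
    rw [conj_eu hρ hu, hw1, ha 2 x hx2, Units.val_mk0, zpow_ofNat]
  have h5 : a * u * a⁻¹ ∈ N := by rw [inj hρ h4]; exact hs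
  have h6 := hN.conj_mem _ h5 a⁻¹
  have h7 : a⁻¹ * (a * u * a⁻¹) * a⁻¹⁻¹ = u := by group
  rwa [h7] at h6

/-- `G` is not trivial. -/
theorem nontriv [CharZero k] (hρ : RP b ρ) : ∃ g : G, g ≠ 1 := by
  haveI := fin_of b
  haveI : Infinite k := Infinite.of_injective (Nat.cast : ℕ → k) Nat.cast_injective
  by_contra hcon
  push Not at hcon
  obtain ⟨x, hx0, hx⟩ := hρ.iso
  refine hx0 (eq_zero_of_lie (k := k) hρ.simple fun v => ?_)
  have h1 : ⁅x, v⁆ = ⁅(0 : L), v⁆ := by
    refine ad_eq_of_eu (k := k) ?_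
    have : {t : k | eu k (t • x) v = eu k (t • (0 : L)) v} = Set.univ := by
      refine Set.eq_univ_of_forall fun t => ?_
      obtain ⟨w, -, hw1, hw0⟩ := exists_curve hρ hx
      show eu k (t • x) v = eu k (t • (0 : L)) v
      rw [smul_zero, ← hw1, ← zero_smul k x, ← hw1, hcon (w t), hcon (w 0)]
    rw [this]
    exact Set.infinite_univ
  rw [h1, zero_lie]

/-- `G` is perfect. -/
theorem commutator_eq_top [CharZero k] (hρ : RP b ρ)
    (span : Submodule.span k {x : L | Nil k x} = ⊤)
    (simple : ∀ N : Subgroup G, N.Normal → N = ⊥ ∨ N = ⊤) : commutator G = ⊤ := by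
  rcases simple (commutator G) inferInstance with h | h
  · exfalso
    obtain ⟨g, hg⟩ := nontriv hρ
    apply hg
    have hc : g ∈ Subgroup.center G := by
      rw [Subgroup.mem_center_iff]
      intro u
      have h1 : u * g * u⁻¹ * g⁻¹ ∈ commutator G :=
        Subgroup.commutator_mem_commutator (Subgroup.mem_top u) (Subgroup.mem_top g)
      rw [h, Subgroup.mem_bot] at h1
      calc u * g = (u * g * u⁻¹ * g⁻¹) * (g * u) := by group
        _ = g * u := by rw [h1, one_mul]
    rw [center_eq_bot hρ span, Subgroup.mem_bot] at hc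
    exact hc
  · exact h

theorem hom_eq_one [CharZero k] (hρ : RP b ρ) (span : Submodule.span k {x : L | Nil k x} = ⊤)
    (simple : ∀ N : Subgroup G, N.Normal → N = ⊥ ∨ N = ⊤) (A : Type) [CommGroup A]
    (f : G →* A) : f = 1 := by
  have h1 := commutator_eq_top hρ span simple
  have h2 : commutator G ≤ f.ker := Abelianization.commutator_subset_ker f
  rw [h1] at h2
  exact MonoidHom.ext fun x => h2 (Subgroup.mem_top x)

end Vale.Agent.P092.H144.Rp
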